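import Mathlib

/-!
# The square lemma
-/

namespace Vale.Agent.P038.H412

open Finset

variable {V : Type*} [Fintype V] [DecidableEq V]

open Classical in
/-- The generic matrix with support `r`. -/
noncomputable def gen (r : V → V → Prop) (x u : V) : MvPolynomial (V × V) ℚ :=
  if r x u then MvPolynomial.X (x, u) else 0

/-- The field of rational functions. -/
abbrev KK (V : Type*) := FractionRing (MvPolynomial (V × V) ℚ)

/-- The generic matrix over the field. -/
noncomputable def pp (r : V → V → Prop) (x u : V) : KK V :=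
  algebraMap (MvPolynomial (V × V) ℚ) (KK V) (gen r x u)

omit [Fintype V] [DecidableEq V] in
theorem pp_eq_zero {r : V → V → Prop} {x u : V} (h : ¬ r x u) : pp r x u = 0 := by
  simp [pp, gen, h]

omit [Fintype V] in
theorem det_ne {r : V → V → Prop} {ι : Type*} [Fintype ι] [DecidableEq ι] (i : ι → V)
    (hi : Function.Injective i) (m : ι → V) (hm : Function.Injective m)
    (hr : ∀ k, r (i k) (m k)) :
    (Matrix.of fun k l : ι => pp r (i l) (m k)).det ≠ 0 := by
  classical
  have h1 : (Matrix.of fun k l : ι => gen r (i l) (m k)).det ≠ 0 := by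
    intro h0
    let φ : MvPolynomial (V × V) ℚ →+* ℚ :=
      (MvPolynomial.aeval (R := ℚ) (fun q : V × V => if ∃ k, i k = q.1 ∧ m k = q.2 then (1 : ℚ) else 0)).toRingHom
    have h2 := congrArg φ h0
    rw [RingHom.map_det, map_zero] at h2
    have h3 : φ.mapMatrix (Matrix.of fun k l : ι => gen r (i l) (m k)) = 1 := by
      ext k l
      simp only [RingHom.mapMatrix_apply, Matrix.map_apply, Matrix.of_apply, Matrix.one_apply]
      by_cases hkl : k = l
      · subst hkl
        have : ∃ k', i k' = i k ∧ m k' = m k := ⟨k, rfl, rfl⟩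
        simp [gen, hr k, φ, this]
      · have : ¬ ∃ k', i k' = i l ∧ m k' = m k := by
          rintro ⟨k', h1, h2⟩
          exact hkl ((hm h2).symm.trans (hi h1))
        rw [if_neg hkl]
        by_cases hrr : r (i l) (m k)
        · simp [gen, hrr, φ, this]
        · simp [gen, hrr]
    rw [h3, Matrix.det_one] at h2
    exact one_ne_zero h2
  have h4 : (Matrix.of fun k l : ι => pp r (i l) (m k)).det
      = algebraMap (MvPolynomial (V × V) ℚ) (KK V) (Matrix.of fun k l : ι => gen r (i l) (m k)).det := by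
    rw [RingHom.map_det]
    rfl
  rw [h4]
  intro h5
  exact h1 ((IsFractionRing.injective (MvPolynomial (V × V) ℚ) (KK V)) (by rw [h5, map_zero]))

open Classical in
/-- One row: Hall implies injectivity. -/
theorem row_inj {r : V → V → Prop} (S T : Finset V)
    (hall : ∀ Y ⊆ S, Y.card ≤ (T.filter fun u => ∃ x ∈ Y, r x u).card)
    (f : V → KK V) (hf : ∀ x, x ∉ S → f x = 0)
    (h : ∀ u ∈ T, ∑ x, pp r x u * f x = 0) : f = 0 := by
  classical
  -- matching
  have hex : ∃ m : S → V, Function.Injective m ∧ ∀ x : S, m x ∈ T.filter fun u => r x.1 u := by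
    rw [← Finset.all_card_le_biUnion_card_iff_exists_injective]
    intro Y
    have h1 := hall (Y.map ⟨Subtype.val, Subtype.val_injective⟩) (by
      intro x hx
      simp only [Finset.mem_map, Function.Embedding.coeFn_mk] at hx
      obtain ⟨y, _, rfl⟩ := hx
      exact y.2)
    rw [Finset.card_map] at h1
    refine h1.trans (Finset.card_le_card ?_)
    intro u hu
    rw [Finset.mem_filter] at hu
    obtain ⟨huT, x, hx, hru⟩ := hu
    rw [Finset.mem_map] at hx
    obtain ⟨y, hy, rfl⟩ := hx
    rw [Finset.mem_biUnion]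
    exact ⟨y, hy, Finset.mem_filter.2 ⟨huT, hru⟩⟩
  obtain ⟨m, hm, hmr⟩ := hex
  have hdet := det_ne (r := r) (fun k : S => k.1) Subtype.val_injective m hm
    (fun k => (Finset.mem_filter.1 (hmr k)).2)
  have hmul : (Matrix.of fun k l : S => pp r l.1 (m k)).mulVec (fun l : S => f l.1) = 0 := by
    ext k
    simp only [Matrix.mulVec, dotProduct, Matrix.of_apply, Pi.zero_apply]
    have h2 := h (m k) (Finset.mem_filter.1 (hmr k)).1
    rw [← h2]
    rw [← Finset.sum_subset (Finset.subset_univ S) (f := fun x => pp r x (m k) * f x)]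
    · exact Finset.sum_coe_sort S (fun x => pp r x (m k) * f x)
    · intro x _ hx
      rw [hf x hx, mul_zero]
  have hz := Matrix.eq_zero_of_mulVec_eq_zero hdet hmul
  funext x
  by_cases hx : x ∈ S
  · exact congrFun hz ⟨x, hx⟩
  · exact hf x hx

open Classical in
/-- All rows: Hall implies injectivity. -/
theorem rows_inj {r : V → V → Prop} (S T : Finset (V × V))
    (hall : ∀ a, ∀ Y : Finset V, (∀ x ∈ Y, (a, x) ∈ S) →
      Y.card ≤ (Finset.univ.filter fun u => (a, u) ∈ T ∧ ∃ x ∈ Y, r x u).card)
    (f : V × V → KK V) (hf : ∀ q, q ∉ S → f q = 0)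
    (h : ∀ a u, (a, u) ∈ T → ∑ x, pp r x u * f (a, x) = 0) : f = 0 := by
  funext q
  obtain ⟨a, x⟩ := q
  have h1 := row_inj (r := r) (Finset.univ.filter fun x => (a, x) ∈ S)
    (Finset.univ.filter fun u => (a, u) ∈ T) (by
      intro Y hY
      refine (hall a Y fun x hx => (Finset.mem_filter.1 (hY hx)).2).trans (Finset.card_le_card ?_)
      intro u hu
      rw [Finset.mem_filter] at hu
      exact Finset.mem_filter.2 ⟨Finset.mem_filter.2 ⟨Finset.mem_univ _, hu.2.1⟩, hu.2.2⟩)
    (fun x => f (a, x)) (by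
      intro x hx
      apply hf
      intro h2
      exact hx (Finset.mem_filter.2 ⟨Finset.mem_univ _, h2⟩)) (by
      intro u hu
      exact h a u (Finset.mem_filter.1 hu).2)
  exact congrFun h1 x

omit [Fintype V] in
theorem sum_row' {K : Type*} [CommRing K] [Fintype V] (S : Finset (V × V)) (v : S → K) (a : V)
    (g : V → K) :
    ∑ q : S, (if a = q.1.1 then g q.1.2 else 0) * v q
      = ∑ x, g x * (if h : (a, x) ∈ S then v ⟨(a, x), h⟩ else 0) := by
  have h1 : ∑ q : S, (if a = q.1.1 then g q.1.2 else 0) * v q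
      = ∑ q : V × V, (if a = q.1 then g q.2 else 0) * (if h : q ∈ S then v ⟨q, h⟩ else 0) := by
    rw [← Finset.sum_subset (Finset.subset_univ S)
      (f := fun q : V × V => (if a = q.1 then g q.2 else 0) * (if h : q ∈ S then v ⟨q, h⟩ else 0))]
    · rw [← Finset.sum_coe_sort S (fun q : V × V =>
        (if a = q.1 then g q.2 else 0) * (if h : q ∈ S then v ⟨q, h⟩ else 0))]
      refine Finset.sum_congr rfl fun q _ => ?_
      rw [dif_pos q.2]
    · intro q _ hq
      rw [dif_neg hq, mul_zero]
  rw [h1, Fintype.sum_prod_type, Finset.sum_eq_single a]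
  · simp
  · intro b _ hb
    refine Finset.sum_eq_zero fun x _ => ?_
    rw [if_neg (Ne.symm hb), zero_mul]
  · intro h; exact absurd (Finset.mem_univ _) h

theorem sum_row {K : Type*} [CommRing K] (S : Finset (V × V)) (v : S → K) (a : V)
    (g : V → K) :
    ∑ q : S, (if a = q.1.1 then g q.1.2 else 0) * v q
      = ∑ x, g x * (if h : (a, x) ∈ S then v ⟨(a, x), h⟩ else 0) := sum_row' S v a g

theorem sum_col {K : Type*} [CommRing K] (S : Finset (V × V)) (v : S → K) (u : V)
    (g : V → K) :
    ∑ q : S, (if q.1.2 = u then g q.1.1 else 0) * v q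
      = ∑ x, g x * (if h : (x, u) ∈ S then v ⟨(x, u), h⟩ else 0) := by
  have h1 : ∑ q : S, (if q.1.2 = u then g q.1.1 else 0) * v q
      = ∑ q : V × V, (if q.2 = u then g q.1 else 0) * (if h : q ∈ S then v ⟨q, h⟩ else 0) := by
    rw [← Finset.sum_subset (Finset.subset_univ S)
      (f := fun q : V × V => (if q.2 = u then g q.1 else 0) * (if h : q ∈ S then v ⟨q, h⟩ else 0))]
    · rw [← Finset.sum_coe_sort S (fun q : V × V =>
        (if q.2 = u then g q.1 else 0) * (if h : q ∈ S then v ⟨q, h⟩ else 0))]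
      refine Finset.sum_congr rfl fun q _ => ?_
      rw [dif_pos q.2]
    · intro q _ hq
      rw [dif_neg hq, mul_zero]
  rw [h1, Fintype.sum_prod_type]
  refine Finset.sum_congr rfl fun x _ => ?_
  rw [Finset.sum_eq_single u]
  · simp
  · intro b _ hb
    rw [if_neg hb, zero_mul]
  · intro h; exact absurd (Finset.mem_univ _) h

open Classical in
/-- **The square lemma.** -/
theorem square {r : V → V → Prop} (Ah Gs Hs Eh : Finset (V × V))
    (hH : ∀ a x a' u, (a, x) ∈ Ah → (a', u) ∈ Eh → r a' a → r x u → (a, u) ∈ Hs)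
    (hG : ∀ a x a' u, (a, x) ∈ Ah → (a', u) ∈ Eh → r a' a → r x u → (a', x) ∈ Gs)
    (hall1 : ∀ a, ∀ Y : Finset V, (∀ x ∈ Y, (a, x) ∈ Ah) →
      Y.card ≤ (Finset.univ.filter fun u => (a, u) ∈ Hs ∧ ∃ x ∈ Y, r x u).card)
    (hall2 : ∀ u, ∀ Y : Finset V, (∀ a' ∈ Y, (a', u) ∈ Eh) →
      Y.card ≤ (Finset.univ.filter fun a => (a, u) ∈ Hs ∧ ∃ a' ∈ Y, r a' a).card) :
    Eh.card + Ah.card ≤ Gs.card + Hs.card := by
  let M1 : Matrix Hs Ah (KK V) := Matrix.of fun h a => if h.1.1 = a.1.1 then pp r a.1.2 h.1.2 else 0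
  let M2 : Matrix Eh Hs (KK V) := Matrix.of fun e h => if e.1.2 = h.1.2 then pp r e.1.1 h.1.1 else 0
  let N1 : Matrix Gs Ah (KK V) := Matrix.of fun g a => if g.1.2 = a.1.2 then pp r g.1.1 a.1.1 else 0
  let N2 : Matrix Eh Gs (KK V) := Matrix.of fun e g => if e.1.1 = g.1.1 then pp r g.1.2 e.1.2 else 0
  have hcomm : M2 * M1 = N2 * N1 := by
    ext e a
    rw [Matrix.mul_apply, Matrix.mul_apply]
    simp only [M1, M2, N1, N2, Matrix.of_apply]
    by_cases hr : r e.1.1 a.1.1 ∧ r a.1.2 e.1.2
    · have hh : (a.1.1, e.1.2) ∈ Hs := hH _ _ _ _ a.2 e.2 hr.1 hr.2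
      have hg : (e.1.1, a.1.2) ∈ Gs := hG _ _ _ _ a.2 e.2 hr.1 hr.2
      rw [Finset.sum_eq_single (⟨(a.1.1, e.1.2), hh⟩ : Hs), Finset.sum_eq_single (⟨(e.1.1, a.1.2), hg⟩ : Gs)]
      · simp only [if_true]
        rw [mul_comm]
      · intro g _ hgne
        by_cases h1 : e.1.1 = g.1.1
        · by_cases h2 : g.1.2 = a.1.2
          · exact absurd (Subtype.ext (Prod.ext h1.symm h2)) hgne
          · rw [if_neg h2, mul_zero]
        · rw [if_neg h1, zero_mul]
      · intro h; exact absurd (Finset.mem_univ _) h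
      · intro g _ hgne
        by_cases h1 : e.1.2 = g.1.2
        · by_cases h2 : g.1.1 = a.1.1
          · exact absurd (Subtype.ext (Prod.ext h2 h1.symm)) hgne
          · rw [if_neg h2, mul_zero]
        · rw [if_neg h1, zero_mul]
      · intro h; exact absurd (Finset.mem_univ _) h
    · rw [Finset.sum_eq_zero, Finset.sum_eq_zero]
      · intro g _
        by_cases h1 : e.1.1 = g.1.1
        · by_cases h2 : g.1.2 = a.1.2
          · rw [if_pos h1, if_pos h2, h2, ← h1]
            by_cases h3 : r e.1.1 a.1.1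
            · have h4 : ¬ r a.1.2 e.1.2 := fun h => hr ⟨h3, h⟩
              rw [pp_eq_zero h4, zero_mul]
            · rw [pp_eq_zero h3, mul_zero]
          · rw [if_neg h2, mul_zero]
        · rw [if_neg h1, zero_mul]
      · intro g _
        by_cases h1 : e.1.2 = g.1.2
        · by_cases h2 : g.1.1 = a.1.1
          · rw [if_pos h1, if_pos h2, h2, ← h1]
            by_cases h3 : r e.1.1 a.1.1
            · have h4 : ¬ r a.1.2 e.1.2 := fun h => hr ⟨h3, h⟩
              rw [pp_eq_zero h4, mul_zero]
            · rw [pp_eq_zero h3, zero_mul]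
          · rw [if_neg h2, mul_zero]
        · rw [if_neg h1, zero_mul]
  have hinj1 : Function.Injective M1.mulVecLin := by
    rw [injective_iff_map_eq_zero]
    intro v hv
    have h1 := rows_inj (r := r) Ah Hs hall1 (fun q => if h : q ∈ Ah then v ⟨q, h⟩ else 0)
      (fun q hq => dif_neg hq) (by
        intro a u hau
        have h2 := congrFun hv ⟨(a, u), hau⟩
        simp only [Matrix.mulVecLin_apply, Matrix.mulVec, dotProduct, M1, Matrix.of_apply,
          Pi.zero_apply] at h2
        exact (sum_row Ah v a (fun x => pp r x u)).symm.trans h2)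
    funext q
    have h3 := congrFun h1 q.1
    simpa [q.2] using h3
  have hinj2 : Function.Injective M2.transpose.mulVecLin := by
    rw [injective_iff_map_eq_zero]
    intro v hv
    have h1 := rows_inj (r := r) (Finset.univ.filter fun q => (q.2, q.1) ∈ Eh)
      (Finset.univ.filter fun q => (q.2, q.1) ∈ Hs)
      (by
        intro u Y hY
        refine (hall2 u Y fun x hx => (Finset.mem_filter.1 (hY x hx)).2).trans
          (Finset.card_le_card ?_)
        intro a ha
        rw [Finset.mem_filter] at ha ⊢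
        exact ⟨Finset.mem_univ _, Finset.mem_filter.2 ⟨Finset.mem_univ _, ha.2.1⟩, ha.2.2⟩)
      (fun q => if h : (q.2, q.1) ∈ Eh then v ⟨(q.2, q.1), h⟩ else 0)
      (fun q hq => dif_neg fun h => hq (Finset.mem_filter.2 ⟨Finset.mem_univ _, h⟩)) (by
        intro u a hau
        have h2 := congrFun hv ⟨(a, u), (Finset.mem_filter.1 hau).2⟩
        simp only [Matrix.mulVecLin_apply, Matrix.mulVec, dotProduct, M2, Matrix.of_apply,
          Pi.zero_apply, Matrix.transpose_apply] at h2
        exact (sum_col Eh v u (fun x => pp r x a)).symm.trans h2)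
    funext q
    have h3 := congrFun h1 (q.1.2, q.1.1)
    simpa [q.2] using h3
  have hE : Module.finrank (KK V) (LinearMap.ker M2.mulVecLin) + Eh.card = Hs.card := by
    have h1 : M2.rank = Eh.card := by
      rw [← Matrix.rank_transpose, Matrix.rank, LinearMap.finrank_range_of_inj hinj2]
      simp
    have h2 := LinearMap.finrank_range_add_finrank_ker M2.mulVecLin
    have h3 : Module.finrank (KK V) (Hs → KK V) = Hs.card := by simp
    rw [Matrix.rank] at h1
    omega
  have hA : Ah.card ≤ Gs.card + Module.finrank (KK V) (LinearMap.ker N1.mulVecLin) := by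
    have h2 := LinearMap.finrank_range_add_finrank_ker N1.mulVecLin
    have h3 : Module.finrank (KK V) (Ah → KK V) = Ah.card := by simp
    have h4 : Module.finrank (KK V) (LinearMap.range N1.mulVecLin) ≤ Gs.card := by
      have := Submodule.finrank_le (LinearMap.range N1.mulVecLin)
      simpa using this
    omega
  have hW : Module.finrank (KK V) (LinearMap.ker N1.mulVecLin)
      ≤ Module.finrank (KK V) (LinearMap.ker M2.mulVecLin) := by
    let g : LinearMap.ker N1.mulVecLin →ₗ[KK V] LinearMap.ker M2.mulVecLin :=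
      LinearMap.codRestrict _ (M1.mulVecLin.comp (LinearMap.ker N1.mulVecLin).subtype) (by
        intro w
        rw [LinearMap.mem_ker]
        have h1 : M2.mulVecLin (M1.mulVecLin w.1) = N2.mulVecLin (N1.mulVecLin w.1) := by
          rw [← LinearMap.comp_apply, ← LinearMap.comp_apply, ← Matrix.mulVecLin_mul,
            ← Matrix.mulVecLin_mul, hcomm]
        have h2 : N1.mulVecLin w.1 = 0 := w.2
        rw [LinearMap.comp_apply, Submodule.subtype_apply, h1, h2, map_zero])
    apply LinearMap.finrank_le_finrank_of_injective (f := g)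
    intro w w' hww
    apply Subtype.ext
    apply hinj1
    exact congrArg Subtype.val hww
  omega

end Vale.Agent.P038.H412
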